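import Vale.Agent.P181.RH.Defs
import Vale.Agent.P181.MD.H873.Third

set_option autoImplicit false

/-!
# P181, RH: block FIN: the polylogarithmic form
-/

namespace Vale.Agent.P181.RH.H410

open Vale.Agent.P181
open Vale.Agent.P181.RH
open Vale.Agent.P181.H280 (plethMult)
open Vale.Agent.P181.T4 (ex)
open Vale.Agent.P181.PL
open Vale.Agent.P181.DX.H556 (UniY FatLog sum_min)
open Vale.Agent.P181.MD.H873 (row_lt gap)
open Filter

/-- A power of `1 + log a` is small. -/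
theorem ev_log (M : ℝ) (p : ℕ) : ∃ a₀ : ℕ, ∀ a : ℕ, a₀ ≤ a → M * (1 + Real.log a) ^ p ≤ a := by
  have h1 : ∀ᶠ x : ℝ in atTop, ‖Real.log x ^ p‖ ≤ 1 / ((|M| + 1) * 2 ^ p) * ‖id x‖ :=
    (Real.isLittleO_pow_log_id_atTop (n := p)).bound (by positivity)
  have h2 : ∀ᶠ x : ℝ in atTop, 1 ≤ Real.log x := Real.tendsto_log_atTop.eventually_ge_atTop 1
  have h3 : ∀ᶠ x : ℝ in atTop, M * (1 + Real.log x) ^ p ≤ x := by
    filter_upwards [h1, h2, eventually_ge_atTop (0 : ℝ)] with x hx1 hx2 hx0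
    rw [Real.norm_of_nonneg (by positivity), id, Real.norm_of_nonneg hx0] at hx1
    have h5 : (1 + Real.log x) ^ p ≤ (2 * Real.log x) ^ p :=
      pow_le_pow_left₀ (by linarith) (by linarith) _
    have h6 : (0 : ℝ) < (|M| + 1) * 2 ^ p := by positivity
    calc M * (1 + Real.log x) ^ p ≤ (|M| + 1) * (1 + Real.log x) ^ p :=
          mul_le_mul_of_nonneg_right (by linarith [le_abs_self M]) (by positivity)
      _ ≤ (|M| + 1) * (2 * Real.log x) ^ p := mul_le_mul_of_nonneg_left h5 (by positivity)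
      _ = ((|M| + 1) * 2 ^ p) * Real.log x ^ p := by rw [mul_pow]; ring
      _ ≤ ((|M| + 1) * 2 ^ p) * (1 / ((|M| + 1) * 2 ^ p) * x) :=
          mul_le_mul_of_nonneg_left hx1 h6.le
      _ = x := by rw [← mul_assoc, mul_one_div_cancel h6.ne', one_mul]
  have h4 := tendsto_natCast_atTop_atTop.eventually h3
  obtain ⟨a₀, ha₀⟩ := eventually_atTop.1 h4
  exact ⟨a₀, ha₀⟩

/-- The long rows. -/
theorem long {T : ℝ} {a b n : ℕ} {lam : Fin n → ℕ} (hanti : Antitone lam) (hT : 17 ≤ T)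
    (hTa : T ^ 5 ≤ (a : ℝ)) (hab : a ≤ b)
    (hmin : ∑ i, ((min b (lam i) : ℕ) : ℝ) ≤ T * b) (hw : (b : ℝ) ^ 2 ≤ T * dn lam 1) :
    (b : ℝ) ^ 2 ≤ T ^ 2 * ex lam 1 := by
  have hT0 : (0 : ℝ) < T := by linarith
  have hT1 : (1 : ℝ) ≤ T := by linarith
  have ha0 : (0 : ℝ) < a := lt_of_lt_of_le (by positivity) hTa
  have habR : (a : ℝ) ≤ b := by exact_mod_cast hab
  have hb0 : (0 : ℝ) < b := ha0.trans_le habR
  obtain ⟨M, hM⟩ : ∃ M : ℝ, M = max (b : ℝ) (ex lam 1) := ⟨_, rfl⟩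
  have hM0 : 0 < M := by rw [hM]; exact lt_max_of_lt_left hb0
  have h3 := (sum_min hanti hM0 hM).trans hmin
  rw [div_le_iff₀ hM0] at h3
  have h4 : (dn lam 1 : ℝ) ≤ T * M := by
    have h5 : (dn lam 1 : ℝ) * b ≤ (T * M) * b := by linarith
    exact le_of_mul_le_mul_right h5 hb0
  have h5 : (b : ℝ) ^ 2 ≤ T ^ 2 * M := by
    calc (b : ℝ) ^ 2 ≤ T * dn lam 1 := hw
      _ ≤ T * (T * M) := mul_le_mul_of_nonneg_left h4 hT0.le
      _ = T ^ 2 * M := by ring
  rcases le_total (b : ℝ) (ex lam 1 : ℝ) with h | h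
  · rw [hM, max_eq_right h] at h5
    exact h5
  · exfalso
    rw [hM, max_eq_left h] at h5
    have h6 : (b : ℝ) ≤ T ^ 2 := by
      have h7 : (b : ℝ) * b ≤ T ^ 2 * b := by linarith [h5, sq (b : ℝ)]
      exact le_of_mul_le_mul_right h7 hb0
    have h7 : T ^ 2 < T ^ 5 := pow_lt_pow_right₀ (by linarith) (by norm_num)
    linarith

/-- The tail. -/
theorem tail_le {T : ℝ} {b n R : ℕ} {lam : Fin n → ℕ}
    (hrow : ∀ i, R ≤ i → ex lam i < b)
    (hmin : ∑ i, ((min b (lam i) : ℕ) : ℝ) ≤ T * b) : (dn lam R : ℝ) ≤ T * b := by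
  refine le_trans ?_ hmin
  have h1 : dn lam R ≤ ∑ i, min b (lam i) := by
    unfold dn
    apply Finset.sum_le_sum
    intro i _
    split_ifs with h
    · have h2 := hrow i h
      rw [exfin] at h2
      rw [min_eq_right h2.le]
    · exact Nat.zero_le _
  exact_mod_cast h1

/-- The gap of `CoreRH` or of `CoreRA`. -/
theorem pick {T : ℝ} {a b n X K : ℕ} {lam : Fin n → ℕ} (hanti : Antitone lam) (hT : 17 ≤ T)
    (hTa : T ^ (4 * K + 8) ≤ (a : ℝ)) (hab : a ≤ b) (hba : (b : ℝ) ≤ T * a)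
    (hX1 : 16 * T ^ 3 ≤ X) (hX2 : (X : ℝ) ≤ T ^ 4)
    (hmin : ∑ i, ((min b (lam i) : ℕ) : ℝ) ≤ T * b) (hw : (b : ℝ) ^ 2 ≤ T * dn lam 1)
    (hD : T ^ (4 * K + 3) * a ≤ dn lam 2) :
    ∃ m, 3 ≤ m ∧ m ≤ X ∧ m ≤ n ∧
      ((a ^ 2 + X * ex lam 2 ≤ X * ex lam 1 ∧ X ^ K * a + ex lam m ≤ ex lam (m - 1)) ∨
        a ^ 2 + X * ex lam m ≤ X * ex lam (m - 1)) := by
  have hT0 : (0 : ℝ) < T := by linarith
  have hT1 : (1 : ℝ) ≤ T := by linarith
  have hTp : ∀ i j : ℕ, i ≤ j → T ^ i ≤ T ^ j := fun i j h => pow_le_pow_right₀ hT1 h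
  have hTa5 : T ^ 5 ≤ (a : ℝ) := (hTp _ _ (by omega)).trans hTa
  have ha0 : (0 : ℝ) < a := lt_of_lt_of_le (by positivity) hTa5
  have ha0N : 0 < a := by exact_mod_cast ha0
  have habR : (a : ℝ) ≤ b := by exact_mod_cast hab
  have hb0 : (0 : ℝ) < b := ha0.trans_le habR
  have hbN : 0 < b := by exact_mod_cast hb0
  have hX0 : (0 : ℝ) < X := lt_of_lt_of_le (by positivity) hX1
  have hX0N : 0 < X := by exact_mod_cast hX0
  obtain ⟨R, hR⟩ : ∃ R : ℕ, R = ⌈T⌉₊ := ⟨_, rfl⟩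
  have hR1 : T ≤ R := by rw [hR]; exact Nat.le_ceil T
  have hR2 : (R : ℝ) ≤ 2 * T := by
    have h3 : (R : ℝ) < T + 1 := by rw [hR]; exact Nat.ceil_lt_add_one hT0.le
    linarith
  have hR16 : 17 ≤ R := by
    have h3 : (17 : ℝ) ≤ R := hT.trans hR1
    exact_mod_cast h3
  have hRX : R ≤ X := by
    have h3 : (R : ℝ) ≤ X := by
      refine hR2.trans (le_trans ?_ hX1)
      have h4 : T ^ 1 ≤ T ^ 3 := hTp 1 3 (by norm_num)
      rw [pow_one] at h4
      linarith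
    exact_mod_cast h3
  have hRrow : ∀ i, R ≤ i → ex lam i < b := fun i hi =>
    row_lt hanti hbN hmin (hR1.trans (by exact_mod_cast hi))
  have hRb : (ex lam R : ℝ) ≤ b := by exact_mod_cast (hRrow R le_rfl).le
  have hlong := long hanti hT hTa5 hab hmin hw
  by_cases hA : a ^ 2 + X * ex lam 2 ≤ X * ex lam 1
  · -- a long gap between the rows two and three
    have htail : (dn lam 2 : ℝ) ≤ T * b + R * ex lam 2 := by
      have e1 := dn_le hanti 2 R
      have e2 : dn lam (2 + R) ≤ dn lam R := dn_anti lam (by omega)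
      have e3 := tail_le hRrow hmin
      have e4 : (dn lam 2 : ℝ) ≤ dn lam R + R * ex lam 2 := by
        exact_mod_cast e1.trans (Nat.add_le_add_right e2 _)
      linarith
    have hgap : ex lam R + R * (X ^ K * a) ≤ ex lam 2 := by
      by_contra hcon
      push Not at hcon
      have h1 : (ex lam 2 : ℝ) ≤ b + R * ((X : ℝ) ^ K * a) := by
        have h2 : (ex lam 2 : ℝ) < ex lam R + R * ((X : ℝ) ^ K * a) := by exact_mod_cast hcon
        linarith
      have hXK : (X : ℝ) ^ K ≤ T ^ (4 * K) := by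
        rw [pow_mul]
        exact pow_le_pow_left₀ hX0.le hX2 K
      have h3 : (R : ℝ) * ((X : ℝ) ^ K * a) ≤ 2 * T * (T ^ (4 * K) * a) := by
        apply mul_le_mul hR2 _ (by positivity) (by positivity)
        exact mul_le_mul_of_nonneg_right hXK ha0.le
      have h4 : (ex lam 2 : ℝ) ≤ T * a + 2 * T * (T ^ (4 * K) * a) := by linarith
      have h5 : (R : ℝ) * ex lam 2 ≤ 2 * T * (T * a + 2 * T * (T ^ (4 * K) * a)) :=
        mul_le_mul hR2 h4 (by positivity) (by positivity)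
      have h6 : T * (b : ℝ) ≤ T * (T * a) := mul_le_mul_of_nonneg_left hba hT0.le
      have h7 : T ^ (4 * K + 3) * a = T * (T ^ (4 * K) * T ^ 2 * a) := by
        rw [pow_add]; ring
      have h8 : T ^ 2 * a ≤ T ^ (4 * K) * T ^ 2 * a := by
        have h9 : 1 ≤ T ^ (4 * K) := one_le_pow₀ hT1
        have h10 : 1 * (T ^ 2 * a) ≤ T ^ (4 * K) * (T ^ 2 * a) :=
          mul_le_mul_of_nonneg_right h9 (by positivity)
        linarith
      have h11 : 17 * (T ^ (4 * K) * T ^ 2 * a) ≤ T * (T ^ (4 * K) * T ^ 2 * a) :=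
        mul_le_mul_of_nonneg_right hT (by positivity)
      have h12 : 0 < T ^ (4 * K) * T ^ 2 * a := by positivity
      nlinarith
    obtain ⟨i, hi1, hi2, hi3⟩ := gap (f := ex lam) (by omega)
      (by positivity : 0 < X ^ K * a) hgap
    refine ⟨i + 1, by omega, by omega, ?_, Or.inl ⟨hA, ?_⟩⟩
    · by_contra hcon
      rw [exge lam (by omega : n ≤ i)] at hi3
      have : 0 < X ^ K * a := by positivity
      omega
    · rw [Nat.add_sub_cancel]
      omega
  · -- a long third row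
    push Not at hA
    have hA' : (X : ℝ) * ex lam 1 ≤ (a : ℝ) ^ 2 + X * ex lam 2 := by exact_mod_cast hA.le
    have hgap : X * ex lam R + R * a ^ 2 ≤ X * ex lam 2 := by
      have h1 : (X : ℝ) * ex lam R + R * (a : ℝ) ^ 2 ≤ X * ex lam 2 := by
        have h2 : (X : ℝ) * ex lam R ≤ (a : ℝ) ^ 2 := by
          calc (X : ℝ) * ex lam R ≤ T ^ 4 * (T * a) :=
                mul_le_mul hX2 (hRb.trans hba) (by positivity) (by positivity)
            _ = T ^ 5 * a := by ring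
            _ ≤ a * a := mul_le_mul_of_nonneg_right hTa5 ha0.le
            _ = (a : ℝ) ^ 2 := by ring
        have h3 : (R : ℝ) * (a : ℝ) ^ 2 ≤ 2 * T * (a : ℝ) ^ 2 :=
          mul_le_mul_of_nonneg_right hR2 (by positivity)
        have h4 : 16 * T * (a : ℝ) ^ 2 ≤ X * ex lam 1 := by
          have h5 : T ^ 2 * (16 * T * (a : ℝ) ^ 2) ≤ T ^ 2 * (X * ex lam 1) := by
            calc T ^ 2 * (16 * T * (a : ℝ) ^ 2) = (16 * T ^ 3) * (a : ℝ) ^ 2 := by ring
              _ ≤ X * (b : ℝ) ^ 2 :=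
                  mul_le_mul hX1 (pow_le_pow_left₀ ha0.le habR 2) (by positivity) hX0.le
              _ ≤ X * (T ^ 2 * ex lam 1) := mul_le_mul_of_nonneg_left hlong hX0.le
              _ = T ^ 2 * (X * ex lam 1) := by ring
          exact le_of_mul_le_mul_left h5 (by positivity)
        have h6 : 17 * (a : ℝ) ^ 2 ≤ T * (a : ℝ) ^ 2 :=
          mul_le_mul_of_nonneg_right hT (by positivity)
        have h7 : 0 < (a : ℝ) ^ 2 := by positivity
        linarith
      exact_mod_cast h1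
    obtain ⟨i, hi1, hi2, hi3⟩ := gap (f := fun i => X * ex lam i) (R := R) (M := a ^ 2) (by omega)
      (by positivity) hgap
    have hi3' : X * ex lam (i + 1) + a ^ 2 ≤ X * ex lam i := hi3
    refine ⟨i + 1, by omega, by omega, ?_, Or.inr ?_⟩
    · by_contra hcon
      rw [exge lam (by omega : n ≤ i)] at hi3'
      have : 0 < a ^ 2 := by positivity
      omega
    · rw [Nat.add_sub_cancel]
      omega

/-- The comparison in `FatLog`. -/
theorem fat {δ a b S T Q : ℝ} (hδ : 0 < δ) (hT : 0 ≤ T) (hab : (1 + δ) * a ≤ b) (hb : 0 ≤ b)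
    (h3 : Q * (1 + δ) ≤ T * δ) (hS : T * b ≤ S) : Q * b ^ 2 ≤ (b - a) * S := by
  have h4 : δ * b ≤ (1 + δ) * (b - a) := by linarith
  have h6 : (T * δ) * b ^ 2 ≤ (δ * b) * S := by
    have := mul_le_mul_of_nonneg_left hS (mul_nonneg hδ.le hb)
    linarith
  have h7 : Q * (1 + δ) * b ^ 2 ≤ (T * δ) * b ^ 2 := mul_le_mul_of_nonneg_right h3 (by positivity)
  have h0 : 0 ≤ S := (mul_nonneg hT hb).trans hS
  have h8 : (δ * b) * S ≤ ((1 + δ) * (b - a)) * S := mul_le_mul_of_nonneg_right h4 h0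
  have h5 : (Q * b ^ 2) * (1 + δ) ≤ ((b - a) * S) * (1 + δ) := by linarith
  exact le_of_mul_le_mul_right h5 (by linarith)

/-- The two cores. -/
theorem cores {δ' : ℝ} {K K1 K2 X1 X2 : ℕ}
    (hC : ∀ (a b X m n : ℕ) (lam : Fin (n + 2) → ℕ), X1 ≤ X → X ^ K1 ≤ a → Antitone lam →
      ∑ i, lam i = a * b → n + 2 ≤ a → (1 + δ') * a ≤ b → b ≤ X * a → 3 ≤ m → m ≤ X →
      m ≤ n + 2 → (∀ i : Fin (n + 2), 2 ≤ (i : ℕ) → a ^ 2 + X * lam i ≤ X * lam 1) →
      (∀ i : Fin (n + 2), (i : ℕ) < m → X ^ K1 * a ≤ lam i ∧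
        ∀ j : Fin (n + 2), m ≤ (j : ℕ) → X ^ K1 * a + lam j ≤ lam i) →
      plethMult a b (n + 2) lam ≤ plethMult b a (n + 2) lam)
    (hA : ∀ (a b X m n : ℕ) (lam : Fin (n + 2) → ℕ), X2 ≤ X → X ^ K2 ≤ a → Antitone lam →
      ∑ i, lam i = a * b → n + 2 ≤ a → (1 + δ') * a ≤ b → b ≤ X * a → 3 ≤ m → m ≤ X →
      m ≤ n + 2 → (∀ i : Fin (n + 2), (i : ℕ) < m → a ^ 2 ≤ X * lam i ∧
        ∀ j : Fin (n + 2), m ≤ (j : ℕ) → a ^ 2 + X * lam j ≤ X * lam i) →
      plethMult a b (n + 2) lam ≤ plethMult b a (n + 2) lam)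
    {a b X m : ℕ} {mu : Fin a → ℕ} (hanti : Antitone mu) (hsum : ∑ i, mu i = a * b)
    (ha2 : 2 ≤ a) (hab' : (1 + δ') * (a : ℝ) ≤ b) (hbX : b ≤ X * a) (hX1N : 1 ≤ X)
    (hXa1 : X1 ≤ X) (hXa2 : X2 ≤ X) (hKK1 : K1 ≤ K) (hKK2 : K2 ≤ K) (hXK : X ^ K ≤ a)
    (hm3 : 3 ≤ m) (hmX : m ≤ X) (hmn : m ≤ a)
    (hm : (a ^ 2 + X * ex mu 2 ≤ X * ex mu 1 ∧ X ^ K * a + ex mu m ≤ ex mu (m - 1)) ∨
        a ^ 2 + X * ex mu m ≤ X * ex mu (m - 1)) :
    plethMult a b a mu ≤ plethMult b a a mu := by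
  obtain ⟨k, hk⟩ : ∃ k, a = k + 2 := ⟨a - 2, by omega⟩
  have hK1 : X ^ K1 ≤ X ^ K := Nat.pow_le_pow_right hX1N (by omega)
  have hK2 : X ^ K2 ≤ X ^ K := Nat.pow_le_pow_right hX1N (by omega)
  have hlow : ∀ i : Fin a, (i : ℕ) < m → ex mu (m - 1) ≤ mu i := by
    intro i hi
    have h6 := exanti hanti (show (i : ℕ) ≤ m - 1 by omega)
    rwa [exfin mu i] at h6
  have hup : ∀ j : Fin a, m ≤ (j : ℕ) → mu j ≤ ex mu m := by
    intro j hj
    have h6 := exanti hanti hj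
    rwa [exfin mu j] at h6
  have hgen : ∀ (l : ℕ) (nu : Fin l → ℕ), l = a → HEq nu mu →
      (plethMult a b l nu ≤ plethMult b a l nu) →
      plethMult a b a mu ≤ plethMult b a a mu := by
    intro l nu hl hnu h
    subst hl
    rw [eq_of_heq hnu] at h
    exact h
  obtain ⟨nu, hnu⟩ : ∃ nu : Fin (k + 2) → ℕ, nu = fun i => mu (Fin.cast hk.symm i) := ⟨_, rfl⟩
  have hheq : HEq nu mu := by
    subst hk
    rw [hnu]
    exact HEq.rfl
  have hnanti : Antitone nu := by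
    intro i j hij
    rw [hnu]
    exact hanti hij
  have hnsum : ∑ i, nu i = a * b := by
    rw [← hsum, hnu]
    exact Equiv.sum_comp (finCongr hk.symm) mu
  have hnex : ∀ i, ex nu i = ex mu i := by
    intro i
    subst hk
    rw [hnu]
    rfl
  refine hgen (k + 2) nu hk.symm hheq ?_
  have hnlow : ∀ i : Fin (k + 2), (i : ℕ) < m → ex mu (m - 1) ≤ nu i := by
    intro i hi
    rw [hnu]
    exact hlow _ hi
  have hnup : ∀ j : Fin (k + 2), m ≤ (j : ℕ) → nu j ≤ ex mu m := by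
    intro j hj
    rw [hnu]
    exact hup _ hj
  rcases hm with ⟨g1, g2⟩ | g2
  · refine hC a b X m k nu hXa1 (hK1.trans hXK) hnanti hnsum hk.ge hab' hbX hm3 hmX
      (by omega) ?_ ?_
    · intro i hi
      have h7 : nu i ≤ ex mu 2 := by
        rw [← hnex, ← exfin nu i]
        exact exanti hnanti hi
      have h8 : nu 1 = ex mu 1 := by
        rw [← hnex, ← exfin nu 1]
        rfl
      rw [h8]
      exact le_trans (Nat.add_le_add_left (Nat.mul_le_mul_left _ h7) _) g1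
    · intro i hi
      have h9 : X ^ K1 * a ≤ X ^ K * a := Nat.mul_le_mul_right _ hK1
      have h10 := hnlow i hi
      refine ⟨by omega, fun j hj => ?_⟩
      have h11 := hnup j hj
      omega
  · refine hA a b X m k nu hXa2 (hK2.trans hXK) hnanti hnsum hk.ge hab' hbX hm3 hmX
      (by omega) ?_
    intro i hi
    have h10 : X * ex mu (m - 1) ≤ X * nu i := Nat.mul_le_mul_left _ (hnlow i hi)
    refine ⟨by omega, fun j hj => ?_⟩
    have h11 : X * nu j ≤ X * ex mu m := Nat.mul_le_mul_left _ (hnup j hj)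
    omega

/-- **[FIN]** -/
theorem finRH (hC : CoreRH) (hA : CoreRA) (hY : UniY) (hF : FatLog) (hP : PolyS) : FinRH := by
  intro δ hδ
  obtain ⟨δ', hδ'⟩ : ∃ δ' : ℝ, δ' = min δ 1 := ⟨_, rfl⟩
  have hd0 : 0 < δ' := by rw [hδ']; exact lt_min hδ one_pos
  have hd1 : δ' ≤ 1 := by rw [hδ']; exact min_le_right _ _
  have hdd : δ' ≤ δ := by rw [hδ']; exact min_le_left _ _
  obtain ⟨K1, X1, hC⟩ := hC δ' hd0 hd1
  obtain ⟨K2, X2, hA⟩ := hA δ' hd0 hd1
  obtain ⟨C1, c1, hC1, hP⟩ := hP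
  obtain ⟨C2, c2, hC2, hY⟩ := hY
  obtain ⟨C3, c3, hC3, hF⟩ := hF
  obtain ⟨K, hK⟩ : ∃ K, K = K1 + K2 := ⟨_, rfl⟩
  obtain ⟨E, hE⟩ : ∃ E : ℝ, E = C3 * ((1 + δ) / δ) := ⟨_, rfl⟩
  have hE0 : 0 < E := by rw [hE]; positivity
  obtain ⟨C4, hC4⟩ : ∃ C4 : ℝ, C4 = 17 + C1 + C2 + E + X1 + X2 := ⟨_, rfl⟩
  have hX1p : (0 : ℝ) ≤ X1 := Nat.cast_nonneg _
  have hX2p : (0 : ℝ) ≤ X2 := Nat.cast_nonneg _
  have hC4p : 17 ≤ C4 := by rw [hC4]; linarith
  obtain ⟨c4, hc4⟩ : ∃ c4, c4 = c1 + c2 + c3 := ⟨_, rfl⟩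
  obtain ⟨a₀, ha₀⟩ := ev_log (C4 ^ (4 * K + 8)) (c4 * (4 * K + 8))
  refine ⟨C4 ^ (4 * K + 3) + C1 * a₀, c4 * (4 * K + 3) + c1, by positivity, ?_⟩
  intro a b hab n lam hlam
  obtain ⟨L, hLd⟩ : ∃ L : ℝ, L = 1 + Real.log a := ⟨_, rfl⟩
  have hL1 : 1 ≤ L := by rw [hLd]; linarith [Real.log_natCast_nonneg a]
  have hL0 : 0 < L := by linarith
  have hLp : ∀ i j : ℕ, i ≤ j → L ^ i ≤ L ^ j := fun i j h => pow_le_pow_right₀ hL1 h
  have hap : (0 : ℝ) ≤ a := Nat.cast_nonneg _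
  have key : ∀ mu : Fin a → ℕ, Antitone mu → ∑ i, mu i = a * b →
      (C4 ^ (4 * K + 3) + C1 * a₀) * L ^ (c4 * (4 * K + 3) + c1) * a ≤ (dn mu 2 : ℝ) →
      plethMult a b a mu ≤ plethMult b a a mu := by
    intro mu hanti hsum hmu
    rcases lt_or_ge a a₀ with hsm | hbig
    · -- small `a`
      refine hP a b ?_ a mu
      rw [← hLd]
      rcases Nat.eq_zero_or_pos a with h0 | h0
      · rw [h0]
        simp
      have h0R : (0 : ℝ) < a := by exact_mod_cast h0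
      have h1 : dn mu 2 ≤ a * b := by
        rw [← hsum]
        unfold dn
        apply Finset.sum_le_sum
        intro i _
        split_ifs
        · exact le_rfl
        · exact Nat.zero_le _
      have h2 : (C4 ^ (4 * K + 3) + C1 * a₀) * L ^ (c4 * (4 * K + 3) + c1) * a ≤ b * a := by
        have h3 : (dn mu 2 : ℝ) ≤ a * b := by exact_mod_cast h1
        linarith
      have h3 := le_of_mul_le_mul_right h2 h0R
      refine le_trans ?_ h3
      have haa : (a : ℝ) ≤ a₀ := by exact_mod_cast hsm.le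
      apply mul_le_mul _ (hLp _ _ (by omega)) (by positivity) (by positivity)
      have h4 : C1 * (a : ℝ) ≤ C1 * a₀ := mul_le_mul_of_nonneg_left haa hC1.le
      have h5 : 0 < C4 ^ (4 * K + 3) := by positivity
      linarith
    -- large `a`
    obtain ⟨T, hT⟩ : ∃ T : ℝ, T = C4 * L ^ c4 := ⟨_, rfl⟩
    have hTC : C4 ≤ T := by
      rw [hT]
      exact le_mul_of_one_le_right (by linarith) (one_le_pow₀ hL1)
    have hT17 : 17 ≤ T := hC4p.trans hTC
    have hT0 : 0 < T := by linarith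
    have hT1 : (1 : ℝ) ≤ T := by linarith
    have hTp : ∀ i j : ℕ, i ≤ j → T ^ i ≤ T ^ j := fun i j h => pow_le_pow_right₀ hT1 h
    have hTa : T ^ (4 * K + 8) ≤ (a : ℝ) := by
      have h1 := ha₀ a hbig
      rw [← hLd] at h1
      rw [hT, mul_pow, ← pow_mul]
      exact h1
    have hT1c : ∀ (C : ℝ) (c : ℕ), 0 ≤ C → C ≤ C4 → c ≤ c4 → C * L ^ c ≤ T := by
      intro C c h0 h1 h2
      rw [hT]
      exact mul_le_mul h1 (hLp _ _ h2) (by positivity) (by positivity)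
    have t1 : C1 * L ^ c1 ≤ T := hT1c _ _ hC1.le (by rw [hC4]; linarith) (by omega)
    have t2 : C2 * L ^ c2 ≤ T := hT1c _ _ (by linarith) (by rw [hC4]; linarith) (by omega)
    have t3 : E * L ^ c3 ≤ T := hT1c _ _ hE0.le (by rw [hC4]; linarith) (by omega)
    have haT : T ≤ a := by
      calc T = T ^ 1 := (pow_one T).symm
        _ ≤ T ^ (4 * K + 8) := hTp _ _ (by omega)
        _ ≤ a := hTa
    have ha17 : 17 ≤ a := by
      have : (17 : ℝ) ≤ a := hT17.trans haT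
      exact_mod_cast this
    have hap' : (0 : ℝ) < a := by linarith
    have habR : (a : ℝ) ≤ b := by nlinarith
    have habN : a ≤ b := by exact_mod_cast habR
    have hbp : (0 : ℝ) < b := by linarith
    have hD : T ^ (4 * K + 3) * a ≤ (dn mu 2 : ℝ) := by
      refine le_trans ?_ hmu
      apply mul_le_mul_of_nonneg_right _ hap
      rw [hT, mul_pow, ← pow_mul]
      apply mul_le_mul _ (hLp _ _ (by omega)) (by positivity) (by positivity)
      have : 0 ≤ C1 * (a₀ : ℝ) := by positivity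
      linarith
    by_cases q1 : C1 * a * (1 + Real.log a) ^ c1 ≤ b
    · exact hP a b q1 a mu
    rw [not_le, ← hLd] at q1
    have hba : (b : ℝ) ≤ T * a := by
      calc (b : ℝ) ≤ C1 * a * L ^ c1 := q1.le
        _ = (C1 * L ^ c1) * a := by ring
        _ ≤ T * a := mul_le_mul_of_nonneg_right t1 hap
    have hdn0 : (0 : ℝ) ≤ dn mu 1 := Nat.cast_nonneg _
    by_cases q2 : T * (dn mu 1 : ℝ) ≤ (b : ℝ) ^ 2
    · -- `UniY`
      have h3 : (b : ℝ) ≤ (dn mu 2 : ℝ) := by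
        refine hba.trans (le_trans ?_ hD)
        apply mul_le_mul_of_nonneg_right _ hap
        calc T = T ^ 1 := (pow_one T).symm
          _ ≤ _ := hTp _ _ (by omega)
      have h4 : C2 * (1 + Real.log a) ^ c2 * (dn mu 1 : ℝ) ≤ (b : ℝ) ^ 2 := by
        rw [← hLd]
        exact (mul_le_mul_of_nonneg_right t2 hdn0).trans q2
      refine hY a b habN a mu (Or.inr (Or.inr (Or.inr ⟨h4, h4.trans ?_⟩)))
      exact pow_le_pow_left₀ hbp.le h3 2
    rw [not_le] at q2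
    by_cases q3 : ∑ i, ((min b (mu i) : ℕ) : ℝ) ≤ T * b
    · -- the cores
      obtain ⟨X, hX⟩ : ∃ X : ℕ, X = ⌈16 * T ^ 3⌉₊ := ⟨_, rfl⟩
      have hXl : 16 * T ^ 3 ≤ X := by rw [hX]; exact Nat.le_ceil _
      have hT3 : T ≤ T ^ 3 := by
        calc T = T ^ 1 := (pow_one T).symm
          _ ≤ T ^ 3 := hTp _ _ (by norm_num)
      have hXu : (X : ℝ) ≤ T ^ 4 := by
        have h3 : (X : ℝ) < 16 * T ^ 3 + 1 := by
          rw [hX]; exact Nat.ceil_lt_add_one (by positivity)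
        have h4 : 17 * T ^ 3 ≤ T * T ^ 3 := mul_le_mul_of_nonneg_right hT17 (by positivity)
        have h5 : T * T ^ 3 = T ^ 4 := by ring
        linarith
      have hTX : T ≤ X := by linarith
      have hX0 : (0 : ℝ) ≤ X := Nat.cast_nonneg _
      have hX1N : 1 ≤ X := by
        have : (1 : ℝ) ≤ X := hT1.trans hTX
        exact_mod_cast this
      have hXK : X ^ K ≤ a := by
        have h3 : (X : ℝ) ^ K ≤ a := by
          calc (X : ℝ) ^ K ≤ (T ^ 4) ^ K := pow_le_pow_left₀ hX0 hXu K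
            _ = T ^ (4 * K) := by rw [← pow_mul]
            _ ≤ T ^ (4 * K + 8) := hTp _ _ (by omega)
            _ ≤ a := hTa
        exact_mod_cast h3
      have hXa1 : X1 ≤ X := by
        have : (X1 : ℝ) ≤ X := by
          refine le_trans ?_ (hTC.trans hTX)
          rw [hC4]; linarith
        exact_mod_cast this
      have hXa2 : X2 ≤ X := by
        have : (X2 : ℝ) ≤ X := by
          refine le_trans ?_ (hTC.trans hTX)
          rw [hC4]; linarith
        exact_mod_cast this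
      have hbX : b ≤ X * a := by
        have : (b : ℝ) ≤ X * a := hba.trans (mul_le_mul_of_nonneg_right hTX hap)
        exact_mod_cast this
      have hab' : (1 + δ') * (a : ℝ) ≤ b := by
        refine le_trans ?_ hab
        exact mul_le_mul_of_nonneg_right (by linarith) hap
      obtain ⟨m, hm3, hmX, hmn, hm⟩ :=
        pick (K := K) hanti hT17 hTa habN hba hXl hXu q3 q2.le hD
      exact cores hC hA hanti hsum (by omega) hab' hbX hX1N hXa1 hXa2 (by omega) (by omega) hXK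
        hm3 hmX hmn hm
    · -- `FatLog`
      rw [not_le] at q3
      apply hF a b a mu habN
      have h3 : C3 * L ^ c3 * (1 + δ) ≤ T * δ := by
        have h4 : E * L ^ c3 = (C3 * L ^ c3 * (1 + δ)) / δ := by
          rw [hE]
          field_simp
        rw [h4, div_le_iff₀ hδ] at t3
        exact t3
      rw [← hLd]
      exact fat hδ hT0.le hab hbp.le h3 q3.le
  rw [← hLd] at hlam
  refine T7.all_n_cells H530.pad_stmt H530.zero_stmt
    (fun f => (C4 ^ (4 * K + 3) + C1 * a₀) * L ^ (c4 * (4 * K + 3) + c1) * a ≤ (f 2 : ℝ))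
    ?_ n lam ?_
  · intro mu hanti hsum hQ
    refine key mu hanti hsum ?_
    have hQ' : (C4 ^ (4 * K + 3) + C1 * a₀) * L ^ (c4 * (4 * K + 3) + c1) * a ≤
      ((T7.below 2 mu : ℕ) : ℝ) := hQ
    rw [T7.below_cells] at hQ'
    exact hQ'
  · exact hlam

end Vale.Agent.P181.RH.H410
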