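import Vale.Agent.P181.RH.H410.NearA
import Vale.Agent.P181.RH.H486.Low
import Vale.Agent.P181.RH.H348.Mat3
import Vale.Agent.P181.RH.H935.Des
import Vale.Agent.P181.RH.H283.ParU
import Vale.Agent.P181.RH.H237.NumU
import Vale.Agent.P181.RH.H694.CoreU
import Vale.Agent.P181.RG.H452.Half
import Vale.Agent.P181.RG.H348.Mat3
import Vale.Agent.P181.RG.H467.Des
import Vale.Agent.P181.RV.H34.Par
import Vale.Agent.P181.RV.H627.NumU
import Vale.Agent.P181.RV.H627.CoreU
import Vale.Agent.P181.RV.H153.Top
import Vale.Agent.P181.TL.H214.UpB

set_option autoImplicit false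

/-!
# P181, RHU: the uniform cores, no hypothesis left
-/

namespace Vale.Agent.P181.RH.H410

open Vale.Agent.P181

/-- The uniform core with marker columns of two lengths. -/
theorem coreRHU : CoreRHU :=
  H694.coreRHU H283.parU (H486.low H348.matLG H935.desRH) H237.numRHU RG.H452.half

/-- The uniform core for a long third row. -/
theorem corVU : RV.CorVU :=
  RV.H627.corVU RG.H348.matRG RG.H467.desRG RG.H452.half RV.H34.par RV.H627.numVU RV.H153.topV
    TL.H214.upB

/-- One theorem for every partition, from the three landed families. -/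
theorem nearA_of (hY : DX.H556.UniY) (hF : DX.H556.FatLog) (hP : PL.PolyS) : NearA :=
  nearA coreRHU corVU hY hF hP

end Vale.Agent.P181.RH.H410
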