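import Vale.Agent.P181.RH.UDefs
import Vale.Agent.P181.RV.H627.UDefs
import Vale.Agent.P181.RH.H410.Fin

set_option autoImplicit false

/-!
# P181, RHU: one theorem for every partition

`C b log (2 + log a) ≤ (b - a) log (D_2 / a)`.
-/

namespace Vale.Agent.P181.RH.H410

open Vale.Agent.P181
open Vale.Agent.P181.RH
open Vale.Agent.P181.H280 (plethMult)
open Vale.Agent.P181.T4 (ex)
open Vale.Agent.P181.PL
open Vale.Agent.P181.DX.H556 (UniY FatLog sum_min)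
open Filter

/-- The logarithm of a polylogarithm. -/
theorem log_T {C4 : ℝ} {c4 a : ℕ} (hC4 : 1 ≤ C4) :
    Real.log ((C4 * (1 + Real.log a) ^ c4) ^ 2) ≤
      (4 * Real.log C4 + 2 * c4) * Real.log (2 + Real.log a) := by
  have h0 : 0 ≤ Real.log a := Real.log_natCast_nonneg a
  have hC0 : 0 ≤ Real.log C4 := Real.log_nonneg hC4
  have h1 : Real.log ((C4 * (1 + Real.log a) ^ c4) ^ 2) =
      2 * Real.log C4 + 2 * c4 * Real.log (1 + Real.log a) := by
    rw [Real.log_pow, Real.log_mul (by positivity) (by positivity), Real.log_pow]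
    push_cast
    ring
  have h2 : Real.log (1 + Real.log a) ≤ Real.log (2 + Real.log a) :=
    Real.log_le_log (by linarith) (by linarith)
  have h3 : 1 / 2 ≤ Real.log (2 + Real.log a) := by
    have h4 : Real.log 2 ≤ Real.log (2 + Real.log a) :=
      Real.log_le_log (by norm_num) (by linarith)
    have := Real.log_two_gt_d9
    linarith
  rw [h1]
  have h5 : 2 * (c4 : ℝ) * Real.log (1 + Real.log a) ≤ 2 * c4 * Real.log (2 + Real.log a) :=
    mul_le_mul_of_nonneg_left h2 (by positivity)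
  have h6 : 4 * Real.log C4 * (1 / 2) ≤ 4 * Real.log C4 * Real.log (2 + Real.log a) :=
    mul_le_mul_of_nonneg_left h3 (by positivity)
  linarith

/-- The exponent. -/
theorem pow_of_log {T δ C cT l Y : ℝ} {K : ℕ} (hT : 0 < T) (hδ : 0 < δ) (hδ1 : δ ≤ 1)
    (hY : 0 < Y) (hlT : Real.log T ≤ cT * l) (hl : 0 ≤ cT * l) (hK : (K : ℝ) ≤ 468 / δ + 103)
    (hC : 2300 * cT * l ≤ C) (h : C ≤ δ * Real.log Y) : T ^ (4 * K + 9) ≤ Y := by
  rw [← Real.log_le_log_iff (by positivity) hY, Real.log_pow]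
  have h1 : δ * (((4 * K + 9 : ℕ) : ℝ) * Real.log T) ≤ δ * Real.log Y := by
    refine le_trans ?_ h
    refine le_trans ?_ hC
    have h2 : δ * ((4 * K + 9 : ℕ) : ℝ) ≤ 2300 := by
      push_cast
      have h3 : δ * K ≤ δ * (468 / δ + 103) := mul_le_mul_of_nonneg_left hK hδ.le
      have h4 : δ * (468 / δ + 103) = 468 + 103 * δ := by field_simp
      nlinarith
    have h5 : δ * (((4 * K + 9 : ℕ) : ℝ) * Real.log T) ≤
        (δ * ((4 * K + 9 : ℕ) : ℝ)) * (cT * l) := by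
      rw [← mul_assoc]
      exact mul_le_mul_of_nonneg_left hlT (by positivity)
    have h6 : (δ * ((4 * K + 9 : ℕ) : ℝ)) * (cT * l) ≤ 2300 * (cT * l) :=
      mul_le_mul_of_nonneg_right h2 hl
    linarith
  exact le_of_mul_le_mul_left h1 hδ

/-- The cores in the letters of `cores`. -/
theorem core1 (hC : CoreRHU) {δ : ℝ} {K : ℕ} (h0 : 0 < δ) (h1 : δ ≤ 1)
    (hK : 68 / δ + 102 ≤ (K : ℝ)) :
    ∀ (a b X m n : ℕ) (lam : Fin (n + 2) → ℕ), max 100 ⌈100 / δ⌉₊ ≤ X → X ^ K ≤ a →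
      Antitone lam → ∑ i, lam i = a * b → n + 2 ≤ a → (1 + δ) * a ≤ b → b ≤ X * a → 3 ≤ m →
      m ≤ X → m ≤ n + 2 → (∀ i : Fin (n + 2), 2 ≤ (i : ℕ) → a ^ 2 + X * lam i ≤ X * lam 1) →
      (∀ i : Fin (n + 2), (i : ℕ) < m → X ^ K * a ≤ lam i ∧
        ∀ j : Fin (n + 2), m ≤ (j : ℕ) → X ^ K * a + lam j ≤ lam i) →
      plethMult a b (n + 2) lam ≤ plethMult b a (n + 2) lam := by
  intro a b X m n lam hX hXK
  have hX1 : 100 ≤ X := (le_max_left _ _).trans hX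
  have hX2 : 100 / δ ≤ (X : ℝ) := by
    refine (Nat.le_ceil _).trans ?_
    exact_mod_cast (le_max_right _ _).trans hX
  exact hC δ K a b X m n lam h0 h1 hK hX1 hX2 hXK

theorem core2 {A0 : ℕ}
    (hV : ∀ (q a b X m k : ℕ) (lam : Fin (k + 2) → ℕ), 1 ≤ q →
      A0 ≤ a → Antitone lam → ∑ i, lam i = a * b → k + 2 ≤ a → 2 * q ≤ X → X ^ (200 * q) ≤ a →
      (q + 1) * a ≤ q * b → b ≤ X * a → 3 ≤ m → m ≤ k + 2 → m ≤ X ^ 2 →
      (∀ i : Fin (k + 2), (i : ℕ) < m → a ^ 2 ≤ X * lam i ∧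
        ∀ j : Fin (k + 2), m ≤ (j : ℕ) → a ^ 2 + X * lam j ≤ X * lam i) →
      plethMult a b (k + 2) lam ≤ plethMult b a (k + 2) lam)
    {δ : ℝ} {q : ℕ} (h0 : 0 < δ) (hq : 1 ≤ q) (hqδ : 1 / δ ≤ (q : ℝ)) :
    ∀ (a b X m n : ℕ) (lam : Fin (n + 2) → ℕ), 2 * q + A0 ≤ X → X ^ (200 * q) ≤ a →
      Antitone lam → ∑ i, lam i = a * b → n + 2 ≤ a → (1 + δ) * a ≤ b → b ≤ X * a → 3 ≤ m →
      m ≤ X → m ≤ n + 2 → (∀ i : Fin (n + 2), (i : ℕ) < m → a ^ 2 ≤ X * lam i ∧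
        ∀ j : Fin (n + 2), m ≤ (j : ℕ) → a ^ 2 + X * lam j ≤ X * lam i) →
      plethMult a b (n + 2) lam ≤ plethMult b a (n + 2) lam := by
  intro a b X m n lam hX hXK hanti hsum hn hab hb hm hmX hmn hg
  have hXa : X ≤ a := (Nat.le_self_pow (by omega) X).trans hXK
  refine hV q a b X m n lam hq (by omega) hanti hsum hn (by omega) hXK ?_ hb hm hmn
    (hmX.trans (Nat.le_self_pow (by norm_num) X)) hg
  have h1 : 1 ≤ δ * q := by
    rw [div_le_iff₀ h0] at hqδ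
    linarith
  have h2 : ((q : ℝ) + 1) * a ≤ q * b := by
    have h3 : (q : ℝ) * ((1 + δ) * a) ≤ q * b := mul_le_mul_of_nonneg_left hab (by positivity)
    have h4 : 1 * (a : ℝ) ≤ (δ * q) * a := mul_le_mul_of_nonneg_right h1 (by positivity)
    linarith
  exact_mod_cast h2

/-- The combinatorial part: `δ`, `T`, `K` are given. -/
theorem joint (hC : CoreRHU) {A0 : ℕ}
    (hV : ∀ (q a b X m k : ℕ) (lam : Fin (k + 2) → ℕ), 1 ≤ q →
      A0 ≤ a → Antitone lam → ∑ i, lam i = a * b → k + 2 ≤ a → 2 * q ≤ X → X ^ (200 * q) ≤ a →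
      (q + 1) * a ≤ q * b → b ≤ X * a → 3 ≤ m → m ≤ k + 2 → m ≤ X ^ 2 →
      (∀ i : Fin (k + 2), (i : ℕ) < m → a ^ 2 ≤ X * lam i ∧
        ∀ j : Fin (k + 2), m ≤ (j : ℕ) → a ^ 2 + X * lam j ≤ X * lam i) →
      plethMult a b (k + 2) lam ≤ plethMult b a (k + 2) lam)
    {δ T : ℝ} {a b K : ℕ} {mu : Fin a → ℕ} (h0 : 0 < δ) (h1 : δ ≤ 1)
    (hK : 468 / δ + 102 ≤ (K : ℝ)) (hT : 100 ≤ T) (hTA : (A0 : ℝ) ≤ T) (hTδ : 1 / δ ≤ T)
    (hanti : Antitone mu) (hsum : ∑ i, mu i = a * b) (hTa : T ^ (4 * K + 8) ≤ (a : ℝ))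
    (hab : (1 + δ) * (a : ℝ) ≤ b) (habN : a ≤ b) (hba : (b : ℝ) ≤ T * a)
    (hmin : ∑ i, ((min b (mu i) : ℕ) : ℝ) ≤ T * b) (hw : (b : ℝ) ^ 2 ≤ T * dn mu 1)
    (hD : T ^ (4 * K + 3) * a ≤ dn mu 2) :
    plethMult a b a mu ≤ plethMult b a a mu := by
  have hT0 : 0 < T := by linarith
  have hT1 : (1 : ℝ) ≤ T := by linarith
  have hTp : ∀ i j : ℕ, i ≤ j → T ^ i ≤ T ^ j := fun i j h => pow_le_pow_right₀ hT1 h
  obtain ⟨X, hX⟩ : ∃ X : ℕ, X = ⌈16 * T ^ 3⌉₊ := ⟨_, rfl⟩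
  have hXl : 16 * T ^ 3 ≤ X := by rw [hX]; exact Nat.le_ceil _
  have hT3 : 10000 * T ≤ T ^ 3 := by
    have h2 : 10000 ≤ T ^ 2 := by nlinarith
    calc 10000 * T ≤ T ^ 2 * T := mul_le_mul_of_nonneg_right h2 hT0.le
      _ = T ^ 3 := by ring
  have hXu : (X : ℝ) ≤ T ^ 4 := by
    have h3 : (X : ℝ) < 16 * T ^ 3 + 1 := by
      rw [hX]; exact Nat.ceil_lt_add_one (by positivity)
    have h4 : 100 * T ^ 3 ≤ T * T ^ 3 := mul_le_mul_of_nonneg_right hT (by positivity)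
    have h5 : T * T ^ 3 = T ^ 4 := by ring
    linarith
  have hTX : 1000 * T ≤ X := by linarith
  have hX0 : (0 : ℝ) ≤ X := Nat.cast_nonneg _
  have hX100 : 100 ≤ X := by
    have : (100 : ℝ) ≤ X := by linarith
    exact_mod_cast this
  have hXK : X ^ K ≤ a := by
    have h3 : (X : ℝ) ^ K ≤ a := by
      calc (X : ℝ) ^ K ≤ (T ^ 4) ^ K := pow_le_pow_left₀ hX0 hXu K
        _ = T ^ (4 * K) := by rw [← pow_mul]
        _ ≤ T ^ (4 * K + 8) := hTp _ _ (by omega)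
        _ ≤ a := hTa
    exact_mod_cast h3
  have haT : T ≤ a := by
    calc T = T ^ 1 := (pow_one T).symm
      _ ≤ T ^ (4 * K + 8) := hTp _ _ (by omega)
      _ ≤ a := hTa
  have ha2 : 2 ≤ a := by
    have : (2 : ℝ) ≤ a := by linarith
    exact_mod_cast this
  have hbX : b ≤ X * a := by
    have : (b : ℝ) ≤ X * a :=
      hba.trans (mul_le_mul_of_nonneg_right (by linarith) (Nat.cast_nonneg _))
    exact_mod_cast this
  obtain ⟨q, hq⟩ : ∃ q : ℕ, q = ⌈1 / δ⌉₊ := ⟨_, rfl⟩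
  have hq1 : 1 / δ ≤ (q : ℝ) := by rw [hq]; exact Nat.le_ceil _
  have h1d : 1 ≤ 1 / δ := by
    rw [le_div_iff₀ h0]; linarith
  have hq2 : (q : ℝ) ≤ 2 * (1 / δ) := by
    have : (q : ℝ) < 1 / δ + 1 := by rw [hq]; exact Nat.ceil_lt_add_one (by positivity)
    linarith
  have hqN : 1 ≤ q := by
    have : (1 : ℝ) ≤ q := h1d.trans hq1
    exact_mod_cast this
  have hqK : 200 * q ≤ K := by
    have h3 : (200 : ℝ) * q ≤ K := by
      have h4 : (468 : ℝ) / δ = 468 * (1 / δ) := by ring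
      rw [h4] at hK
      linarith
    exact_mod_cast h3
  have hX2 : 2 * q + A0 ≤ X := by
    have : 2 * (q : ℝ) + A0 ≤ X := by linarith
    exact_mod_cast this
  have hX1 : max 100 ⌈100 / δ⌉₊ ≤ X := by
    refine max_le hX100 ?_
    rw [Nat.ceil_le]
    have h4 : (100 : ℝ) / δ = 100 * (1 / δ) := by ring
    rw [h4]
    linarith
  obtain ⟨m, hm3, hmX, hmn, hm⟩ :=
    pick (K := K) hanti (by linarith) hTa habN hba hXl hXu hmin hw hD
  have hK' : 68 / δ + 102 ≤ (K : ℝ) := by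
    have h4 : (468 : ℝ) / δ = 68 / δ + 400 * (1 / δ) := by ring
    rw [h4] at hK
    linarith
  exact cores (core1 hC h0 h1 hK') (core2 hV h0 hqN hq1) hanti hsum ha2 hab hbX (by omega)
    hX1 hX2 le_rfl hqK hXK hm3 hmX hmn hm

/-- **[NEARA]** -/
theorem nearA (hC : CoreRHU) (hV : RV.CorVU) (hY : UniY) (hF : FatLog) (hP : PolyS) :
    NearA := by
  obtain ⟨A0, hV⟩ := hV
  obtain ⟨C1, c1, hC1, hP⟩ := hP
  obtain ⟨C2, c2, hC2, hY⟩ := hY
  obtain ⟨C3, c3, hC3, hF⟩ := hF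
  obtain ⟨C4, hC4⟩ : ∃ C4 : ℝ, C4 = 100 + C1 + C2 + C3 + A0 := ⟨_, rfl⟩
  have hA0p : (0 : ℝ) ≤ A0 := Nat.cast_nonneg _
  have hC4p : 100 ≤ C4 := by rw [hC4]; linarith
  obtain ⟨c4, hc4⟩ : ∃ c4, c4 = c1 + c2 + c3 + 1 := ⟨_, rfl⟩
  obtain ⟨cT, hcT⟩ : ∃ cT : ℝ, cT = 4 * Real.log C4 + 2 * c4 := ⟨_, rfl⟩
  have hcT0 : 0 ≤ cT := by
    rw [hcT]
    have := Real.log_nonneg (show 1 ≤ C4 by linarith)
    positivity
  refine ⟨4 + 2300 * cT, by positivity, ?_⟩
  intro a b habN n lam hlam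
  rcases Nat.eq_zero_or_pos a with ha0 | ha0
  · refine hP a b ?_ n lam
    rw [ha0]
    simp
  obtain ⟨L, hLd⟩ : ∃ L : ℝ, L = 1 + Real.log a := ⟨_, rfl⟩
  obtain ⟨l, hld⟩ : ∃ l : ℝ, l = Real.log (2 + Real.log a) := ⟨_, rfl⟩
  have hlog0 : 0 ≤ Real.log a := Real.log_natCast_nonneg a
  have hL1 : 1 ≤ L := by rw [hLd]; linarith
  have hl1 : 1 / 2 ≤ l := by
    have h4 : Real.log 2 ≤ Real.log (2 + Real.log a) :=
      Real.log_le_log (by norm_num) (by linarith)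
    have := Real.log_two_gt_d9
    rw [hld]
    linarith
  have hL0 : 0 < L := by linarith
  have hLp : ∀ i j : ℕ, i ≤ j → L ^ i ≤ L ^ j := fun i j h => pow_le_pow_right₀ hL1 h
  have hap : (0 : ℝ) < a := by exact_mod_cast ha0
  have habR : (a : ℝ) ≤ b := by exact_mod_cast habN
  have hbp : (0 : ℝ) < b := hap.trans_le habR
  obtain ⟨δ, hδ⟩ : ∃ δ : ℝ, δ = ((b : ℝ) - a) / b := ⟨_, rfl⟩
  have hδb : (b : ℝ) - a = δ * b := by rw [hδ]; field_simp
  have hδ0 : 0 ≤ δ := by rw [hδ]; exact div_nonneg (by linarith) hbp.le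
  have hδ1 : δ ≤ 1 := by
    rw [hδ, div_le_one hbp]; linarith
  have hab : (1 + δ) * (a : ℝ) ≤ b := by
    have : δ * (a : ℝ) ≤ δ * b := mul_le_mul_of_nonneg_left habR hδ0
    linarith
  rw [← hld] at hlam
  have key : ∀ mu : Fin a → ℕ, Antitone mu → ∑ i, mu i = a * b →
      (4 + 2300 * cT) * b * l ≤ ((b : ℝ) - a) * Real.log ((dn mu 2 : ℝ) / a) →
      plethMult a b a mu ≤ plethMult b a a mu := by
    intro mu hanti hsum hmu
    have hmain : (4 + 2300 * cT) * l ≤ δ * Real.log ((dn mu 2 : ℝ) / a) := by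
      rw [hδb] at hmu
      have h1 : ((4 + 2300 * cT) * l) * b ≤ (δ * Real.log ((dn mu 2 : ℝ) / a)) * b := by
        linarith
      exact le_of_mul_le_mul_right h1 hbp
    have hpos : 0 < δ * Real.log ((dn mu 2 : ℝ) / a) :=
      lt_of_lt_of_le (by positivity) hmain
    have hδp : 0 < δ := by
      rcases hδ0.eq_or_lt with h | h
      · rw [← h, zero_mul] at hpos
        exact absurd hpos (lt_irrefl _)
      · exact h
    have hlogp : 0 < Real.log ((dn mu 2 : ℝ) / a) := by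
      by_contra hcon
      push Not at hcon
      have := mul_nonpos_of_nonneg_of_nonpos hδp.le hcon
      linarith
    have hDp : (0 : ℝ) < dn mu 2 := by
      rcases (Nat.cast_nonneg (dn mu 2) : (0 : ℝ) ≤ (dn mu 2 : ℝ)).eq_or_lt with h | h
      · rw [← h, zero_div, Real.log_zero] at hlogp
        exact absurd hlogp (lt_irrefl _)
      · exact h
    have hDab : (dn mu 2 : ℝ) ≤ a * b := by
      have h1 : dn mu 2 ≤ a * b := by
        rw [← hsum]
        unfold dn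
        apply Finset.sum_le_sum
        intro i _
        split_ifs
        · exact le_rfl
        · exact Nat.zero_le _
      exact_mod_cast h1
    by_cases q1 : C1 * a * (1 + Real.log a) ^ c1 ≤ b
    · exact hP a b q1 a mu
    rw [not_le, ← hLd] at q1
    obtain ⟨T0, hT0⟩ : ∃ T0 : ℝ, T0 = C4 * L ^ c4 := ⟨_, rfl⟩
    have hT0C : C4 ≤ T0 := by
      rw [hT0]
      exact le_mul_of_one_le_right (by linarith) (one_le_pow₀ hL1)
    have hT0p : 0 < T0 := by linarith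
    have hTc : ∀ (C : ℝ) (c : ℕ), 0 ≤ C → C ≤ C4 → c ≤ c4 → C * L ^ c ≤ T0 := by
      intro C c h0 h1 h2
      rw [hT0]
      exact mul_le_mul h1 (hLp _ _ h2) (by positivity) (by positivity)
    have t1 : C1 * L ^ c1 ≤ T0 := hTc _ _ hC1.le (by rw [hC4]; linarith) (by omega)
    have t2 : C2 * L ^ c2 ≤ T0 := hTc _ _ (by linarith) (by rw [hC4]; linarith) (by omega)
    have t3 : C3 * L ^ c3 ≤ T0 := hTc _ _ hC3.le (by rw [hC4]; linarith) (by omega)
    have t4 : 1 * L ^ 1 ≤ T0 := hTc 1 1 (by norm_num) (by linarith) (by omega)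
    obtain ⟨T, hT⟩ : ∃ T : ℝ, T = T0 ^ 2 := ⟨_, rfl⟩
    have hTT0 : 100 * T0 ≤ T := by
      rw [hT, sq]
      exact mul_le_mul_of_nonneg_right (by linarith) hT0p.le
    have hT1 : 1 ≤ T := by linarith
    have hTpos : 0 < T := by linarith
    have hTp : ∀ i j : ℕ, i ≤ j → T ^ i ≤ T ^ j := fun i j h => pow_le_pow_right₀ hT1 h
    have hbT0 : (b : ℝ) ≤ T0 * a := by
      calc (b : ℝ) ≤ C1 * a * L ^ c1 := q1.le
        _ = (C1 * L ^ c1) * a := by ring
        _ ≤ T0 * a := mul_le_mul_of_nonneg_right t1 hap.le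
    have hba : (b : ℝ) ≤ T * a := hbT0.trans (mul_le_mul_of_nonneg_right (by linarith) hap.le)
    -- `1 ≤ δ T0`
    have hδT : 1 ≤ δ * T0 := by
      have h1 : Real.log ((dn mu 2 : ℝ) / a) ≤ 2 * T0 := by
        have h2 : (dn mu 2 : ℝ) / a ≤ T0 * a := by
          rw [div_le_iff₀ hap]
          calc (dn mu 2 : ℝ) ≤ a * b := hDab
            _ ≤ a * (T0 * a) := mul_le_mul_of_nonneg_left hbT0 hap.le
            _ = T0 * a * a := by ring
        have h3 := Real.log_le_log (by positivity) h2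
        rw [Real.log_mul hT0p.ne' hap.ne'] at h3
        have h4 : Real.log T0 ≤ T0 - 1 := Real.log_le_sub_one_of_pos hT0p
        have h5 : Real.log a ≤ T0 := by
          rw [one_mul, pow_one, hLd] at t4
          linarith
        linarith
      have h6 : δ * Real.log ((dn mu 2 : ℝ) / a) ≤ δ * (2 * T0) :=
        mul_le_mul_of_nonneg_left h1 hδp.le
      have h7 : 4 * (1 / 2) ≤ (4 + 2300 * cT) * l :=
        mul_le_mul (by linarith) hl1 (by norm_num) (by positivity)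
      linarith
    have hTδ : 1 / δ ≤ T0 := by
      rw [div_le_iff₀ hδp]; linarith
    -- the exponent
    obtain ⟨K, hK⟩ : ∃ K : ℕ, K = ⌈468 / δ⌉₊ + 102 := ⟨_, rfl⟩
    have hK1 : 468 / δ + 102 ≤ (K : ℝ) := by
      rw [hK]; push_cast
      linarith [Nat.le_ceil (468 / δ)]
    have hK2 : (K : ℝ) ≤ 468 / δ + 103 := by
      rw [hK]; push_cast
      have := Nat.ceil_lt_add_one (show 0 ≤ 468 / δ by positivity)
      linarith
    have hlT : Real.log T ≤ cT * l := by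
      have h1 := log_T (C4 := C4) (c4 := c4) (a := a) (by linarith)
      rw [← hLd, ← hT0, ← hT, ← hcT, ← hld] at h1
      exact h1
    have hYp : (0 : ℝ) < (dn mu 2 : ℝ) / a := by positivity
    have hpow : T ^ (4 * K + 9) ≤ (dn mu 2 : ℝ) / a :=
      pow_of_log (C := (4 + 2300 * cT) * l) hTpos hδp hδ1 hYp hlT (by positivity) hK2
        (by nlinarith) hmain
    have hD9 : T ^ (4 * K + 9) * a ≤ dn mu 2 := by
      rw [le_div_iff₀ hap] at hpow
      exact hpow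
    have hD : T ^ (4 * K + 3) * a ≤ dn mu 2 :=
      (mul_le_mul_of_nonneg_right (hTp _ _ (by omega)) hap.le).trans hD9
    have hTa : T ^ (4 * K + 8) ≤ (a : ℝ) := by
      have h1 : T ^ (4 * K + 8) * (T * a) ≤ a * (T * a) := by
        calc T ^ (4 * K + 8) * (T * a) = T ^ (4 * K + 9) * a := by
              rw [pow_succ T (4 * K + 8)]; ring
          _ ≤ dn mu 2 := hD9
          _ ≤ a * b := hDab
          _ ≤ a * (T * a) := mul_le_mul_of_nonneg_left hba hap.le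
      exact le_of_mul_le_mul_right h1 (by positivity)
    have hdn0 : (0 : ℝ) ≤ dn mu 1 := Nat.cast_nonneg _
    by_cases q2 : T * (dn mu 1 : ℝ) ≤ (b : ℝ) ^ 2
    · -- `UniY`
      have h3 : (b : ℝ) ≤ (dn mu 2 : ℝ) := by
        refine hba.trans (le_trans ?_ hD)
        apply mul_le_mul_of_nonneg_right _ hap.le
        calc T = T ^ 1 := (pow_one T).symm
          _ ≤ _ := hTp _ _ (by omega)
      have h4 : C2 * (1 + Real.log a) ^ c2 * (dn mu 1 : ℝ) ≤ (b : ℝ) ^ 2 := by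
        rw [← hLd]
        exact (mul_le_mul_of_nonneg_right (t2.trans (by linarith)) hdn0).trans q2
      refine hY a b habN a mu (Or.inr (Or.inr (Or.inr ⟨h4, h4.trans ?_⟩)))
      exact pow_le_pow_left₀ hbp.le h3 2
    rw [not_le] at q2
    by_cases q3 : ∑ i, ((min b (mu i) : ℕ) : ℝ) ≤ T * b
    · exact joint hC hV hδp hδ1 hK1 (by linarith) (by rw [hC4] at hT0C; linarith)
        (by linarith) hanti hsum hTa hab habN hba q3 q2.le hD
    · -- `FatLog`
      rw [not_le] at q3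
      apply hF a b a mu habN
      rw [← hLd, hδb]
      calc C3 * L ^ c3 * (b : ℝ) ^ 2 ≤ T0 * (b : ℝ) ^ 2 :=
            mul_le_mul_of_nonneg_right t3 (by positivity)
        _ = 1 * (T0 * (b : ℝ) ^ 2) := by ring
        _ ≤ (δ * T0) * (T0 * (b : ℝ) ^ 2) := mul_le_mul_of_nonneg_right hδT (by positivity)
        _ = (δ * b) * (T * b) := by rw [hT]; ring
        _ ≤ (δ * b) * ∑ i, ((min b (mu i) : ℕ) : ℝ) :=
            mul_le_mul_of_nonneg_left q3.le (by positivity)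
  refine T7.all_n_cells H530.pad_stmt H530.zero_stmt
    (fun f => (4 + 2300 * cT) * b * l ≤ ((b : ℝ) - a) * Real.log ((f 2 : ℝ) / a))
    ?_ n lam ?_
  · intro mu hanti hsum hQ
    refine key mu hanti hsum ?_
    have hQ' : (4 + 2300 * cT) * b * l ≤
      ((b : ℝ) - a) * Real.log (((T7.below 2 mu : ℕ) : ℝ) / a) := hQ
    rw [T7.below_cells] at hQ'
    exact hQ'
  · exact hlam

end Vale.Agent.P181.RH.H410
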